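import Vale.Agent.P027.Defs

/-! Classes of relations closed under conjunction and existential quantification. -/

namespace Vale.Agent.P027

/-- A class of relations closed under renaming, conjunction and projection. -/
structure Cls (α : Type) where
  D : ∀ {ι : Type}, ((ι → α) → Prop) → Prop
  ren : ∀ {ι ι' : Type} {S : (ι → α) → Prop} (f : ι → ι'), D S →
    D fun v : ι' → α => S fun i => v (f i)
  and : ∀ {ι : Type} {S T : (ι → α) → Prop}, D S → D T → D fun v => S v ∧ T v
  exF : ∀ {ι τ : Type} [Finite τ] {S : (ι ⊕ τ → α) → Prop}, D S →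
    D fun v => ∃ u : τ → α, S (Sum.elim v u)
  eq : ∀ {ι : Type} (i j : ι), D fun v : ι → α => v i = v j
  triv : ∀ {ι : Type}, D fun _ : ι → α => True

namespace Cls

variable {α ι ι' : Type} {K : Cls α} {f g h : (ι → α) → α}

theorem congr {S T : (ι → α) → Prop} (h : K.D S) (e : ∀ v, S v ↔ T v) : K.D T := by
  have : S = T := funext fun v => propext (e v)
  exact this ▸ h

theorem ex {S : (ι → α) → α → Prop}
    (h : K.D fun v : Option ι → α => S (fun i => v (some i)) (v none)) :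
    K.D fun v => ∃ a, S v a :=
  congr (K.exF (τ := Unit) (K.ren (fun o : Option ι => o.elim (Sum.inr ()) Sum.inl) h)) fun _ =>
    ⟨fun ⟨u, hu⟩ => ⟨u (), hu⟩, fun ⟨a, ha⟩ => ⟨fun _ => a, ha⟩⟩

theorem all {κ : Type} [Finite κ] {S : κ → (ι → α) → Prop} (h : ∀ j, K.D (S j)) :
    K.D fun v => ∀ j, S j v := by
  classical
  have := Fintype.ofFinite κ
  have key : ∀ s : Finset κ, K.D fun v => ∀ j ∈ s, S j v := fun s => by
    induction s using Finset.induction_on with
    | empty => exact congr K.triv fun v => by simp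
    | insert a s _ ih => exact congr (K.and (h a) ih) fun v => by simp
  exact congr (key Finset.univ) fun v => by simp

/-- Functions whose graph is in the class. -/
def Fn (K : Cls α) (f : (ι → α) → α) : Prop :=
  K.D fun v : Option ι → α => v none = f fun i => v (some i)

theorem subst {κ : Type} [Finite κ] {R : (κ → α) → Prop} (hR : K.D R) {f : κ → (ι → α) → α}
    (hf : ∀ j, K.Fn (f j)) : K.D fun v => R fun j => f j v :=
  congr (K.exF (K.and (all fun j => K.ren (fun o : Option ι => o.elim (Sum.inr j) Sum.inl) (hf j))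
    (K.ren Sum.inr hR))) fun _ =>
    ⟨fun ⟨u, hu, h⟩ => (funext hu : u = _) ▸ h, fun h => ⟨_, fun _ => rfl, h⟩⟩

theorem var (i : ι) : K.Fn fun v => v i := K.eq none (some i)

theorem Fn.up (hf : K.Fn f) (e : ι → ι') : K.Fn fun v => f fun i => v (e i) :=
  K.ren (Option.map e) hf

theorem rel2 {R : α → α → Prop} (hR : K.D fun v : Fin 2 → α => R (v 0) (v 1)) (hf : K.Fn f)
    (hg : K.Fn g) : K.D fun v => R (f v) (g v) :=
  subst hR (f := ![f, g]) fun j => by fin_cases j <;> assumption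

theorem rel3 {R : α → α → α → Prop} (hR : K.D fun v : Fin 3 → α => R (v 0) (v 1) (v 2))
    (hf : K.Fn f) (hg : K.Fn g) (hh : K.Fn h) : K.D fun v => R (f v) (g v) (h v) :=
  subst hR (f := ![f, g, h]) fun j => by fin_cases j <;> assumption

theorem rel6 {R : α → α → α → α → α → α → Prop}
    (hR : K.D fun v : Fin 6 → α => R (v 0) (v 1) (v 2) (v 3) (v 4) (v 5))
    {f' g' h' : (ι → α) → α} (hf : K.Fn f) (hg : K.Fn g) (hh : K.Fn h) (hf' : K.Fn f')
    (hg' : K.Fn g') (hh' : K.Fn h') :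
    K.D fun v => R (f v) (g v) (h v) (f' v) (g' v) (h' v) :=
  subst hR (f := ![f, g, h, f', g', h']) fun j => by fin_cases j <;> assumption

theorem eqf (hf : K.Fn f) (hg : K.Fn g) : K.D fun v => f v = g v := rel2 (K.eq 0 1) hf hg

theorem op2 {op : α → α → α} (hR : K.D fun v : Fin 3 → α => op (v 0) (v 1) = v 2) (hf : K.Fn f)
    (hg : K.Fn g) : K.Fn fun v => op (f v) (g v) :=
  congr (rel3 (R := fun a b c => op a b = c) hR (hf.up some) (hg.up some) (var none))
    fun _ => eq_comm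

variable [CommRing α]

/-- Addition and constants are in the class. -/
structure Lin (K : Cls α) : Prop where
  add' : K.D fun v : Fin 3 → α => v 0 + v 1 = v 2
  const' : ∀ c, K.D fun v : Unit → α => v () = c

theorem Lin.const (L : K.Lin) (c : α) : K.Fn fun _ : ι → α => c :=
  K.ren (fun _ => none) (L.const' c)

theorem Lin.add (L : K.Lin) (hf : K.Fn f) (hg : K.Fn g) : K.Fn fun v => f v + g v :=
  op2 L.add' hf hg

theorem Lin.sub (L : K.Lin) (hf : K.Fn f) (hg : K.Fn g) : K.Fn fun v => f v - g v :=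
  congr (eqf (L.add (var none) (hg.up some)) (hf.up some)) fun _ => eq_sub_iff_add_eq.symm

theorem Lin.nmul (L : K.Lin) (n : ℕ) (hf : K.Fn f) : K.Fn fun v => n * f v := by
  induction n with
  | zero => simpa using L.const 0
  | succ n ih => simpa [add_mul] using L.add ih hf

theorem Lin.zmul (L : K.Lin) (n : ℤ) (hf : K.Fn f) : K.Fn fun v => n * f v := by
  obtain ⟨n, rfl | rfl⟩ := n.eq_nat_or_neg
  · simpa using L.nmul n hf
  · simpa using L.sub (L.const 0) (L.nmul n hf)

theorem Lin.eval (L : K.Lin) (hm : K.D fun v : Fin 3 → α => v 0 * v 1 = v 2)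
    (P : MvPolynomial ι α) : K.Fn fun v => MvPolynomial.eval v P := by
  induction P using MvPolynomial.induction_on with
  | C a => simpa using L.const a
  | add p q hp hq => simpa using L.add hp hq
  | mul_X p i hp => simpa using op2 hm hp (var i)

end Cls

/-- Renaming of the unknowns of a constraint. -/
def ren {α β : Type} (f : α → β) (c : ℕ × α × α × α) : ℕ × β × β × β :=
  (c.1, f c.2.1, f c.2.2.1, f c.2.2.2)

/-- Projections of solution sets of finite systems of constraints. -/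
def Df (B : ℚ → ℚ → Prop) {ι : Type} (S : (ι → ℚ) → Prop) : Prop :=
  ∃ (σ : Type) (_ : Finite σ) (L : List (ℕ × (ι ⊕ σ) × (ι ⊕ σ) × (ι ⊕ σ))),
    ∀ v, S v ↔ ∃ w : σ → ℚ, ∀ c ∈ L, Holds B (Sum.elim v w) c

theorem holds_map {B : ℚ → ℚ → Prop} {α β : Type} (f : α → β) (L : List (ℕ × α × α × α))
    (x : β → ℚ) : (∀ c ∈ L.map (ren f), Holds B x c) ↔ ∀ c ∈ L, Holds B (x ∘ f) c :=
  List.forall_mem_map

theorem df_atom {B : ℚ → ℚ → Prop} {ι : Type} (c : ℕ × ι × ι × ι) : Df B fun v => Holds B v c :=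
  ⟨Empty, inferInstance, [ren .inl c], fun _ =>
    ⟨fun h => ⟨Empty.elim, fun _ hc => List.mem_singleton.1 hc ▸ h⟩, fun ⟨_, h⟩ => h _ (List.mem_singleton_self _)⟩⟩

/-- The class of the relations defined by systems of constraints. -/
def KQ (B : ℚ → ℚ → Prop) : Cls ℚ where
  D := Df B
  ren f := fun ⟨σ, i, L, h⟩ => ⟨σ, i, L.map (ren (Sum.map f id)), fun v => by
    simp only [h, holds_map, Sum.elim_comp_map]
    rfl⟩
  and := fun ⟨σ, _, L, h⟩ ⟨σ', _, L', h'⟩ => ⟨σ ⊕ σ', inferInstance,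
    L.map (ren (Sum.map id .inl)) ++ L'.map (ren (Sum.map id .inr)), fun v => by
    simp only [h, h', List.forall_mem_append, holds_map, Sum.elim_comp_map]
    exact ⟨fun ⟨⟨w, hw⟩, w', hw'⟩ => ⟨Sum.elim w w', hw, hw'⟩,
      fun ⟨w, hw, hw'⟩ => ⟨⟨_, hw⟩, _, hw'⟩⟩⟩
  exF := fun {ι τ} _ _ ⟨σ, _, L, h⟩ => ⟨τ ⊕ σ, inferInstance,
    L.map (ren (Equiv.sumAssoc ι τ σ)), fun v => by
    have e : ∀ w : τ ⊕ σ → ℚ, Sum.elim v w ∘ Equiv.sumAssoc ι τ σ =
        Sum.elim (Sum.elim v (w ∘ .inl)) (w ∘ .inr) := fun w => by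
      funext i
      rcases i with (i | i) | i <;> rfl
    simp only [h, holds_map, e]
    exact ⟨fun ⟨u, w, hw⟩ => ⟨Sum.elim u w, hw⟩, fun ⟨w, hw⟩ => ⟨_, _, hw⟩⟩⟩
  eq i j := ⟨Unit, inferInstance, [(2, .inr (), .inr (), .inr ()), (1, .inl i, .inr (), .inl j)],
    fun v => by
      simp only [Holds, List.forall_mem_cons, List.not_mem_nil]
      exact ⟨fun h => ⟨fun _ => 1, by simp [h]⟩, fun ⟨w, h1, h2, _⟩ => by
        simp at h1 h2
        rw [← h2, h1, mul_one]⟩⟩
  triv := ⟨Empty, inferInstance, [], fun _ => by simp⟩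

end Vale.Agent.P027
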