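import Vale.Agent.P345.CurveB

/-! A copy of the integers on the bounded real component of `y ^ 2 = x ^ 3 - 2 * x`. -/

noncomputable section

namespace Vale.Agent.P027

open Vale.Agent.P345 WeierstrassCurve WeierstrassCurve.Affine WeierstrassCurve.Affine.Point

/-- `X n, Y n` are the coordinates of `P + n P₁`, and `U m, V m` those of `m P₁`. -/
structure Model (X Y U V : ℤ → ℚ) (e : ℤ) (κ C : ℝ) : Prop where
  pos : 0 < κ
  inj : ∀ n m, X n = X m → Y n = Y m → n = m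
  uv : ∀ u v, (∃ m, m ≠ 0 ∧ u = U m ∧ v = V m) ↔
    v * v = u * u * u - 2 * u ∧ ∃ s r, u = s * s ∧ s * r = 1
  ne : ∀ n m, m ≠ 0 → X n ≠ U m
  add : ∀ n m l, m ≠ 0 → l * (X n - U m) = Y n - V m →
    X (n + m) = l * l - X n - U m ∧ Y (n + m) = l * (X n - X (n + m)) - Y n
  bd : ∀ n, |X n| ≤ 2
  ht : ∀ n, |Real.log (X n).den - κ * (2 * n + e) ^ 2| ≤ C
  gcd : ∀ n m, Int.gcd (2 * n + e) (2 * m + e) ≠ 0 →
    Real.log (Nat.gcd (X n).den (X m).den) ≤ 4 * κ * (Int.gcd (2 * n + e) (2 * m + e)) ^ 2 + C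

theorem na_roots {p : ℕ} [Fact p.Prime] {a b ε : ℚ} (h1 : padicNorm p (a + b) ≤ ε)
    (h2 : padicNorm p (a * b) ≤ ε * ε) (h0 : 0 ≤ ε) : padicNorm p a ≤ ε := by
  by_contra hc
  have hc := not_le.1 hc
  have h3 : padicNorm p b < padicNorm p a := by
    rw [padicNorm.mul] at h2
    by_contra hb
    nlinarith [not_lt.1 hb]
  rw [padicNorm.add_eq_max_of_ne h3.ne', max_eq_left h3.le] at h1
  linarith

/-- Points that are close to the origin at `p`. -/
def Near (p : ℕ) (ε : ℚ) (Q : GE) : Prop :=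
  Q.xRep 0 ≠ 0 ∧ padicNorm p (Q.xRep 1 / Q.xRep 0) ≤ ε

theorem Near.add_sub {p : ℕ} [Fact p.Prime] {ε : ℚ} (h0 : 0 ≤ ε) (h1 : ε < 1) {P Q : GE}
    (hP : Near p ε P) (hQ : Near p ε Q) : Near p ε (P + Q) ∧ Near p ε (P - Q) := by
  obtain ⟨c, hc, e⟩ := sym2x_add_sub P Q
  unfold sym2x at e
  rw [addSubMap_eval] at e
  have e0 := congrFun e 0
  have e1 := congrFun e 1
  have e2 := congrFun e 2
  simp only [Pi.smul_apply, smul_eq_mul, Matrix.cons_val_zero, Matrix.cons_val_one,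
    Matrix.cons_val] at e0 e1 e2
  unfold Near at *
  generalize P.xRep 0 = x₁, P.xRep 1 = z₁, Q.xRep 0 = x₂, Q.xRep 1 = z₂, (P + Q).xRep 0 = x₃,
    (P + Q).xRep 1 = z₃, (P - Q).xRep 0 = x₄, (P - Q).xRep 1 = z₄ at *
  obtain ⟨a, rfl⟩ : ∃ a, z₁ = a * x₁ := ⟨z₁ / x₁, (div_mul_cancel₀ _ hP.1).symm⟩
  obtain ⟨b, rfl⟩ : ∃ b, z₂ = b * x₂ := ⟨z₂ / x₂, (div_mul_cancel₀ _ hQ.1).symm⟩
  obtain ⟨hx₁, ha⟩ := hP
  obtain ⟨hx₂, hb⟩ := hQ
  rw [mul_div_cancel_right₀ _ hx₁] at ha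
  rw [mul_div_cancel_right₀ _ hx₂] at hb
  have n2 : padicNorm p 2 ≤ 1 := by exact_mod_cast padicNorm.of_int (p := p) 2
  have nab : padicNorm p (2 * a * b) < 1 := by
    rw [padicNorm.mul, padicNorm.mul]
    have := mul_le_mul n2 ha (padicNorm.nonneg _) zero_le_one
    have := mul_le_mul this hb (padicNorm.nonneg _) (by linarith)
    nlinarith
  have u1 : padicNorm p (1 + 2 * a * b) = 1 := by
    rw [padicNorm.add_eq_max_of_ne (by rw [padicNorm.one]; exact nab.ne'), padicNorm.one,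
      max_eq_left nab.le]
  have u2 : padicNorm p (1 - 2 * a * b) ≤ 1 :=
    padicNorm.sub.trans (max_le padicNorm.one.le nab.le)
  have hu : 1 + 2 * a * b ≠ 0 := fun h => by
    rw [h, padicNorm.zero] at u1
    exact zero_ne_one u1
  have f0 : c * (x₃ * x₄) = (x₁ * x₂ * (1 + 2 * a * b)) ^ 2 := by rw [e0]; ring
  have hx : x₃ * x₄ ≠ 0 := fun h => by
    rw [h, mul_zero] at f0
    exact pow_ne_zero 2 (mul_ne_zero (mul_ne_zero hx₁ hx₂) hu) f0.symm
  have hx₃ := left_ne_zero_of_mul hx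
  have hx₄ := right_ne_zero_of_mul hx
  have hk : (x₁ * x₂) ^ 2 ≠ 0 := pow_ne_zero 2 (mul_ne_zero hx₁ hx₂)
  have f1 : (z₃ / x₃ + z₄ / x₄) * ((1 + 2 * a * b) * (1 + 2 * a * b)) =
      2 * (a + b) * (1 - 2 * a * b) := by
    refine mul_left_cancel₀ hk ?_
    calc _ = (z₃ / x₃ + z₄ / x₄) * (x₁ * x₂ * (1 + 2 * a * b)) ^ 2 := by ring
      _ = c * (x₃ * z₄ + z₃ * x₄) := by rw [← f0]; field_simp; ring
      _ = _ := by linear_combination e1
  have f2 : (z₃ / x₃ * (z₄ / x₄)) * ((1 + 2 * a * b) * (1 + 2 * a * b)) = (a - b) * (a - b) := by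
    refine mul_left_cancel₀ hk ?_
    calc _ = (z₃ / x₃ * (z₄ / x₄)) * (x₁ * x₂ * (1 + 2 * a * b)) ^ 2 := by ring
      _ = c * (z₃ * z₄) := by rw [← f0]; field_simp
      _ = _ := by linear_combination e2
  have g1 : padicNorm p (z₃ / x₃ + z₄ / x₄) ≤ ε := by
    have h := congrArg (padicNorm p) f1
    rw [padicNorm.mul, padicNorm.mul, u1, padicNorm.mul, padicNorm.mul, mul_one, mul_one] at h
    have h3 : padicNorm p (a + b) ≤ ε := padicNorm.nonarchimedean.trans (max_le ha hb)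
    have h4 := mul_le_mul n2 h3 (padicNorm.nonneg _) zero_le_one
    have h5 := mul_le_mul h4 u2 (padicNorm.nonneg _) (by linarith)
    linarith
  have g2 : padicNorm p (z₃ / x₃ * (z₄ / x₄)) ≤ ε * ε := by
    have h := congrArg (padicNorm p) f2
    rw [padicNorm.mul, padicNorm.mul (1 + 2 * a * b), u1, padicNorm.mul (a - b), mul_one,
      mul_one] at h
    have h3 : padicNorm p (a - b) ≤ ε := padicNorm.sub.trans (max_le ha hb)
    rw [h]
    exact mul_le_mul h3 h3 (padicNorm.nonneg _) h0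
  exact ⟨⟨hx₃, na_roots g1 g2 h0⟩,
    hx₄, na_roots (by rwa [add_comm] at g1) (by rwa [mul_comm] at g2) h0⟩

/-- The subgroup of the points close to the origin. -/
def nearSub (p : ℕ) [Fact p.Prime] {ε : ℚ} (h0 : 0 ≤ ε) (h1 : ε < 1) : AddSubgroup GE where
  carrier := {Q | Near p ε Q}
  add_mem' h h' := (Near.add_sub h0 h1 h h').1
  zero_mem' := by
    change Near p ε 0
    unfold Near
    rw [xRep_zero]
    simpa using h0
  neg_mem' h := by
    change Near p ε _ at h ⊢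
    unfold Near at h ⊢
    rwa [xRep_neg]

theorem near_iff {p : ℕ} [hp : Fact p.Prime] {r : ℕ} (hr : r ≠ 0) {x y : ℚ}
    (h : EC.toAffine.Nonsingular x y) :
    Near p ((p : ℚ) ^ (-(r : ℤ))) (some x y h) ↔ p ^ r ∣ x.den := by
  unfold Near
  rw [xRep_some]
  simp only [Matrix.cons_val_zero, Matrix.cons_val_one]
  have key : (p ^ r ∣ x.den) ↔ padicNorm p (x.den : ℤ) ≤ (p : ℚ) ^ (-(r : ℤ)) := by
    rw [← padicNorm.dvd_iff_norm_le, Int.natCast_dvd_natCast]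
  constructor
  · rintro ⟨h0, h1⟩
    have e : ((x.den : ℤ) : ℚ) = 1 / x * x.num := by
      rw [← Rat.mul_den_eq_num]
      field_simp
      simp
    rw [key, e, padicNorm.mul]
    exact (mul_le_of_le_one_right (padicNorm.nonneg _) (padicNorm.of_int _)).trans h1
  · intro h1
    have hd : p ∣ x.den := (dvd_pow_self p hr).trans h1
    have hn : ¬ (p : ℤ) ∣ x.num := fun hn => hp.out.one_lt.ne' <| Nat.dvd_one.1 <|
      x.reduced ▸ Nat.dvd_gcd (Int.natCast_dvd.1 hn) hd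
    have h0 : x ≠ 0 := by
      rintro rfl
      exact hn (by simp)
    refine ⟨h0, ?_⟩
    have e : ((x.den : ℤ) : ℚ) = 1 / x * x.num := by
      rw [← Rat.mul_den_eq_num]
      field_simp
      simp
    rwa [key, e, padicNorm.mul, (padicNorm.int_eq_one_iff _).2 hn, mul_one] at h1

/-- Common divisors of denominators. -/
theorem gcd_den_dvd {x y x' y' x'' y'' : ℚ} (h : EC.toAffine.Nonsingular x y)
    (h' : EC.toAffine.Nonsingular x' y') (h'' : EC.toAffine.Nonsingular x'' y'') {a b : ℤ}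
    (e : some x'' y'' h'' = a • some x y h + b • some x' y' h') :
    Nat.gcd x.den x'.den ∣ x''.den := by
  rw [Nat.dvd_iff_prime_pow_dvd_dvd]
  intro p r hp hr
  rcases eq_or_ne r 0 with rfl | hr0
  · simp
  have : Fact p.Prime := ⟨hp⟩
  have h1 : (1 : ℚ) < p := by exact_mod_cast hp.one_lt
  have h2 : (p : ℚ) ^ (-(r : ℤ)) < 1 := zpow_lt_one_of_neg₀ h1 (by omega)
  have h3 : (0 : ℚ) ≤ (p : ℚ) ^ (-(r : ℤ)) := by positivity
  rw [← near_iff hr0 h'', e]
  exact (nearSub p h3 h2).add_mem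
    ((nearSub p h3 h2).zsmul_mem ((near_iff hr0 h).2 (hr.trans (Nat.gcd_dvd_left _ _))) a)
    ((nearSub p h3 h2).zsmul_mem ((near_iff hr0 h').2 (hr.trans (Nat.gcd_dvd_right _ _))) b)

theorem add_formula {x₁ y₁ x₂ y₂ l : ℚ} (h₁ : EC.toAffine.Nonsingular x₁ y₁)
    (h₂ : EC.toAffine.Nonsingular x₂ y₂) (hx : x₁ ≠ x₂) (hl : l * (x₁ - x₂) = y₁ - y₂) :
    ∃ h, some x₁ y₁ h₁ + some x₂ y₂ h₂ =
      some (l * l - x₁ - x₂) (l * (x₁ - (l * l - x₁ - x₂)) - y₁) h := by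
  rw [add_of_X_ne hx]
  have e0 : EC.toAffine.slope x₁ x₂ y₁ y₂ = l := by
    rw [slope_of_X_ne hx, div_eq_iff (sub_ne_zero.2 hx), hl]
  have e1 : EC.toAffine.addX x₁ x₂ l = l * l - x₁ - x₂ := by
    simp only [addX, EC]
    ring
  have e2 : EC.toAffine.addY x₁ x₂ y₁ l = l * (x₁ - (l * l - x₁ - x₂)) - y₁ := by
    rw [addY, negY_eq, negAddY, e1]
    ring
  have h := nonsingular_add h₁ h₂ fun hxy => hx hxy.left
  rw [e0, e1, e2] at h
  exact ⟨h, by simp only [e0, e1, e2]⟩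

/-- First coordinate. -/
def cx : GE → ℚ
  | .zero => 0
  | .some x _ _ => x

/-- Second coordinate. -/
def cy : GE → ℚ
  | .zero => 0
  | .some _ y _ => y

theorem log_den {x : ℚ} (h : |x| ≤ 2) :
    |Real.log (max x.num.natAbs x.den : ℕ) - Real.log x.den| ≤ 1 := by
  have h0 : (0 : ℝ) < x.den := by exact_mod_cast x.den_pos
  have h1 : (x.den : ℝ) ≤ (max x.num.natAbs x.den : ℕ) := by exact_mod_cast le_max_right _ _
  have h2 : x.num.natAbs ≤ 2 * x.den := by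
    have h3 : (|x.num| : ℚ) ≤ 2 * x.den := by
      rw [← Rat.mul_den_eq_num, abs_mul, Nat.abs_cast]
      exact mul_le_mul_of_nonneg_right h (Nat.cast_nonneg _)
    have h4 : |x.num| ≤ 2 * (x.den : ℤ) := by exact_mod_cast h3
    rw [Int.abs_eq_natAbs] at h4
    exact_mod_cast h4
  have h3 : ((max x.num.natAbs x.den : ℕ) : ℝ) ≤ 2 * x.den := by
    exact_mod_cast max_le h2 (by omega)
  have h4 := Real.log_le_log h0 h1
  have h5 := Real.log_le_log (h0.trans_le h1) h3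
  rw [Real.log_mul two_ne_zero h0.ne'] at h5
  have h6 := Real.log_le_sub_one_of_pos (two_pos (α := ℝ))
  rw [abs_le]
  constructor <;> linarith

theorem exists_model : ∃ X Y U V e κ C, Model X Y U V e κ C := by
  obtain ⟨P₁, hz, hG, c, C, hc, hC⟩ := exists_gen
  obtain ⟨C', hC'⟩ := ht_par
  have hQ : ∀ m : ℤ, m ≠ 0 → ∃ u v h, m • P₁ = some u v h ∧ ∃ s : ℚ, 0 < s ∧ u = s ^ 2 := by
    intro m hm
    rcases e : m • P₁ with _ | ⟨u, v, h⟩
    · exact absurd (hz m e) hm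
    · exact ⟨u, v, h, rfl, (hG u v h).1 ⟨m, e⟩⟩
  have hW : ∀ n : ℤ, ∃ x y h, ptP + n • P₁ = some x y h ∧ x ≤ 0 := by
    intro n
    rcases eq_or_ne n 0 with rfl | hn
    · exact ⟨-1, 1, _, by rw [zero_zsmul, add_zero]; rfl, by norm_num⟩
    obtain ⟨u, v, h, e, s, hs, hu⟩ := hQ n hn
    have hu0 : 0 < u := hu ▸ pow_pos hs 2
    have hne : (-1 : ℚ) - u ≠ 0 := by linarith
    obtain ⟨h', e'⟩ := add_formula (ns_iff.2 (by norm_num : (1 : ℚ) ^ 2 = (-1) ^ 3 - 2 * (-1))) h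
      (by linarith) (div_mul_cancel₀ (1 - v) hne)
    refine ⟨_, _, h', by rw [e]; exact e', ?_⟩
    have h1 := ns_iff.1 h
    have hl := div_mul_cancel₀ (1 - v) hne
    generalize (1 - v) / (-1 - u) = l at *
    have hv : v = 1 + l * (1 + u) := by linarith
    have h2 : (1 + u) * (u * (l * l + 1 - u) + (1 + l) ^ 2) = 0 := by
      rw [hv] at h1
      linear_combination h1
    have h3 := (mul_eq_zero.1 h2).resolve_left (by linarith)
    by_contra hx
    nlinarith [mul_pos hu0 (show 0 < l * l + 1 - u by linarith [not_le.1 hx]), sq_nonneg (1 + l)]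
  obtain ⟨e, he⟩ : ∃ e : ℤ, e • P₁ = ptP + ptP := by
    obtain ⟨y', h', e'⟩ := xRep_dbl (ns_iff.2 (by norm_num : (1 : ℚ) ^ 2 = (-1) ^ 3 - 2 * (-1)))
      one_ne_zero
    obtain ⟨e, he⟩ := (hG _ y' h').2 ⟨_, by norm_num, rfl⟩
    exact ⟨e, he.trans e'.symm⟩
  have dbl : ∀ n : ℤ, (ptP + n • P₁) + (ptP + n • P₁) = (2 * n + e) • P₁ := fun n => by
    rw [add_zsmul, he, two_mul, add_zsmul]
    abel
  have bd : ∀ n : ℤ, |cx (ptP + n • P₁)| ≤ 2 := fun n => by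
    obtain ⟨x, y, h, e1, hx⟩ := hW n
    rw [e1]
    have h1 := ns_iff.1 h
    change |x| ≤ 2
    rw [abs_of_nonpos hx]
    by_contra hc
    have h2 : x < -2 := by linarith [not_le.1 hc]
    nlinarith [sq_nonneg y, mul_pos_of_neg_of_neg (show x < 0 by linarith) (show x + 2 < 0 by linarith)]
  have C0 : 0 ≤ C := (abs_nonneg _).trans (hC 0)
  have C0' : 0 ≤ C' := (abs_nonneg _).trans (hC' 0 0)
  refine ⟨fun n => cx (ptP + n • P₁), fun n => cy (ptP + n • P₁), fun m => cx (m • P₁),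
    fun m => cy (m • P₁), e, c / 4, 2 * C + C' + 1, by positivity, fun n m h1 h2 => ?_,
    fun u v => ⟨?_, ?_⟩, fun n m hm => ?_, fun n m l hm hl => ?_, bd, fun n => ?_,
    fun n m hg => ?_⟩
  · obtain ⟨x, y, h, e1, -⟩ := hW n
    obtain ⟨x', y', h', e2, -⟩ := hW m
    rw [e1, e2] at h1 h2
    change x = x' at h1
    change y = y' at h2
    subst h1 h2
    have h3 : n • P₁ = m • P₁ := add_left_cancel (e1.trans e2.symm)
    exact sub_eq_zero.1 (hz _ (by rw [sub_zsmul, h3, add_neg_cancel]))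
  · rintro ⟨m, hm, rfl, rfl⟩
    obtain ⟨u, v, h, e1, s, hs, hu⟩ := hQ m hm
    rw [e1]
    change v * v = u * u * u - 2 * u ∧ ∃ s r, u = s * s ∧ s * r = 1
    exact ⟨by linear_combination ns_iff.1 h, s, s⁻¹, by rw [hu, sq], mul_inv_cancel₀ hs.ne'⟩
  · rintro ⟨h1, s, r, hu, hs⟩
    have h : EC.toAffine.Nonsingular u v := ns_iff.2 (by linear_combination h1)
    obtain ⟨m, hm⟩ := (hG u v h).2 ⟨|s|, abs_pos.2 (left_ne_zero_of_mul_eq_one hs),
      by rw [sq_abs, hu, sq]⟩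
    refine ⟨m, ?_, by rw [hm]; rfl, by rw [hm]; rfl⟩
    rintro rfl
    rw [zero_zsmul] at hm
    exact some_ne_zero h hm.symm
  · obtain ⟨x, y, h, e1, hx⟩ := hW n
    obtain ⟨u, v, h', e2, s, hs, hu⟩ := hQ m hm
    rw [e1, e2]
    change x ≠ u
    exact (hx.trans_lt (hu ▸ pow_pos hs 2)).ne
  · obtain ⟨x, y, h, e1, hx⟩ := hW n
    obtain ⟨u, v, h', e2, s, hs, hu⟩ := hQ m hm
    rw [e1, e2] at hl
    obtain ⟨h'', e3⟩ := add_formula h h' (hx.trans_lt (hu ▸ pow_pos hs 2)).ne hl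
    rw [add_zsmul, ← add_assoc, e1, e2, e3]
    exact ⟨rfl, rfl⟩
  · have h1 := abs_le.1 (hC' (ptP + n • P₁) (ptP + n • P₁))
    have h2 := abs_le.1 (hC (2 * n + e))
    have h3 := abs_le.1 (hC 0)
    have h4 := abs_le.1 (log_den (bd n))
    rw [dbl, sub_self] at h1
    rw [zero_zsmul] at h3
    obtain ⟨x, y, h, e1, -⟩ := hW n
    rw [e1] at h1 h4 ⊢
    rw [ht_some] at h1
    change _ ≤ _ - Real.log x.den ∧ _ - Real.log x.den ≤ _ at h4
    change |Real.log x.den - _| ≤ _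
    change _ ≤ Real.log (max x.num.natAbs x.den : ℕ) - _ ∧
      Real.log (max x.num.natAbs x.den : ℕ) - _ ≤ _ at h4
    push_cast at h2 h3
    rw [abs_le]
    constructor <;> linarith [h1.1, h1.2, h2.1, h2.2, h3.1, h3.2, h4.1, h4.2]
  · obtain ⟨x, y, h, e1, -⟩ := hW n
    obtain ⟨x', y', h', e2, -⟩ := hW m
    obtain ⟨u, v, h'', e3, -⟩ := hQ (Int.gcd (2 * n + e) (2 * m + e)) (by exact_mod_cast hg)
    have h1 := gcd_den_dvd h h' h'' (a := 2 * Int.gcdA (2 * n + e) (2 * m + e))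
      (b := 2 * Int.gcdB (2 * n + e) (2 * m + e)) (by
        rw [← e1, ← e2, ← e3, Int.gcd_eq_gcd_ab, mul_comm 2 (Int.gcdA _ _),
          mul_comm 2 (Int.gcdB _ _), mul_zsmul, mul_zsmul, two_zsmul, two_zsmul, dbl, dbl,
          ← mul_zsmul, ← mul_zsmul, ← add_zsmul, mul_comm (Int.gcdA _ _), mul_comm (Int.gcdB _ _)])
    have h2 := abs_le.1 (hC (Int.gcd (2 * n + e) (2 * m + e)))
    rw [e3, ht_some] at h2
    rw [e1, e2]
    change Real.log (Nat.gcd x.den x'.den) ≤ _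
    have h3 : (Nat.gcd x.den x'.den : ℝ) ≤ (max u.num.natAbs u.den : ℕ) := by
      exact_mod_cast (Nat.le_of_dvd u.den_pos h1).trans (le_max_right _ _)
    have h4 := Real.log_le_log (by exact_mod_cast Nat.gcd_pos_of_pos_left _ x.den_pos) h3
    have h5 := h2.2
    rw [Int.cast_natCast] at h5
    linarith

end Vale.Agent.P027
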