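import Mathlib

/-! Statement-level definitions: heights and systems of constraints. -/

namespace Vale.Agent.P027

/-- The multiplicative height of a rational number. -/
def Ht (x : ℚ) : ℕ := max x.num.natAbs x.den

/-- A constraint `(t, i, j, k)` on the unknowns `x`: it reads `x i + x j = x k` for `t = 0`,
`x i * x j = x k` for `t = 1`, `x i = 1` for `t = 2`, and `B (x i) (x j)` otherwise. -/
def Holds {α : Type} (B : ℚ → ℚ → Prop) (x : α → ℚ) (c : ℕ × α × α × α) : Prop :=
  if c.1 = 0 then x c.2.1 + x c.2.2.1 = x c.2.2.2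
  else if c.1 = 1 then x c.2.1 * x c.2.2.1 = x c.2.2.2
  else if c.1 = 2 then x c.2.1 = 1
  else B (x c.2.1) (x c.2.2.1)

end Vale.Agent.P027
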