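import Vale.Agent.P027.Cls
import Vale.Agent.P027.Curve

/-! The integers, coded by points of the curve: addition and the comparison relation. -/

namespace Vale.Agent.P027

open Cls

variable {B : ℚ → ℚ → Prop} {ι : Type}

theorem kq_add : (KQ B).D fun v : Fin 3 → ℚ => v 0 + v 1 = v 2 := df_atom (B := B) (0, 0, 1, 2)

theorem kq_mul : (KQ B).D fun v : Fin 3 → ℚ => v 0 * v 1 = v 2 := df_atom (B := B) (1, 0, 1, 2)

theorem kq_B : (KQ B).D fun v : Fin 2 → ℚ => B (v 0) (v 1) := df_atom (B := B) (3, 0, 1, 0)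

theorem fn_one : (KQ B).Fn fun _ : ι → ℚ => 1 := df_atom (B := B) (2, none, none, none)

theorem fn_nat (n : ℕ) : (KQ B).Fn fun _ : ι → ℚ => (n : ℚ) := by
  induction n with
  | zero =>
    exact congr (K := KQ B) (df_atom (B := B) (0, none, none, none)) fun v => by simp [Holds]
  | succ n ih => simpa using op2 kq_add ih fn_one

theorem fn_int (n : ℤ) : (KQ B).Fn fun _ : ι → ℚ => (n : ℚ) := by
  obtain ⟨n, rfl | rfl⟩ := n.eq_nat_or_neg
  · simpa using fn_nat n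
  · exact congr (eqf (op2 kq_add (var none) (fn_nat n)) (fn_nat 0)) fun v => by
      simp [add_eq_zero_iff_eq_neg]

theorem kq_lin : (KQ B).Lin where
  add' := kq_add
  const' c := congr (eqf (op2 kq_mul (var ()) (fn_nat c.den)) (fn_int c.num)) fun v => by
    rw [← eq_div_iff (Nat.cast_ne_zero.2 c.den_nz), Rat.num_div_den]

theorem fn_mul {f g : (ι → ℚ) → ℚ} (hf : (KQ B).Fn f) (hg : (KQ B).Fn g) :
    (KQ B).Fn fun v => f v * g v := op2 kq_mul hf hg

/-- chord addition of two affine points -/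
def Step (x y u v x' y' : ℚ) : Prop :=
  ∃ l, l * (x - u) = y - v ∧ x' = l * l - x - u ∧ y' = l * (x - x') - y

/-- points of the subgroup -/
def G0 (u v : ℚ) : Prop := v * v = u * u * u - 2 * u ∧ ∃ s r, u = s * s ∧ s * r = 1

/-- translation by two points -/
def Two (w : Fin 4 → ℚ) (x y x' y' : ℚ) : Prop :=
  ∃ p q, Step x y (w 0) (w 1) p q ∧ Step p q (w 2) (w 3) x' y'

/-- the same translation moves the base point and the first point -/
def AddQ (x₀ y₀ xa ya xb yb xc yc : ℚ) : Prop :=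
  ∃ w : Fin 4 → ℚ, (G0 (w 0) (w 1) ∧ G0 (w 2) (w 3)) ∧ Two w x₀ y₀ xb yb ∧ Two w xa ya xc yc

theorem kq_step : (KQ B).D fun v : Fin 6 → ℚ => Step (v 0) (v 1) (v 2) (v 3) (v 4) (v 5) := by
  have L := kq_lin (B := B)
  exact ex ((KQ B).and
    (eqf (fn_mul (var none) (L.sub (var (some 0)) (var (some 2))))
      (L.sub (var (some 1)) (var (some 3))))
    ((KQ B).and (eqf (var (some 4))
      (L.sub (L.sub (fn_mul (var none) (var none)) (var (some 0))) (var (some 2))))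
      (eqf (var (some 5)) (L.sub (fn_mul (var none) (L.sub (var (some 0)) (var (some 4))))
        (var (some 1))))))

theorem kq_G0 : (KQ B).D fun v : Fin 2 → ℚ => G0 (v 0) (v 1) := by
  have L := kq_lin (B := B)
  exact (KQ B).and (eqf (fn_mul (var 1) (var 1))
    (L.sub (fn_mul (fn_mul (var 0) (var 0)) (var 0)) (fn_mul (L.const 2) (var 0))))
    (ex (ex ((KQ B).and (eqf (var (some (some 0))) (fn_mul (var (some none)) (var (some none))))
      (eqf (fn_mul (var (some none)) (var none)) fn_one))))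

theorem kq_two {w : Fin 4 → (ι → ℚ) → ℚ} {x y x' y' : (ι → ℚ) → ℚ} (hw : ∀ j, (KQ B).Fn (w j))
    (hx : (KQ B).Fn x) (hy : (KQ B).Fn y) (hx' : (KQ B).Fn x') (hy' : (KQ B).Fn y') :
    (KQ B).D fun v => Two (fun j => w j v) (x v) (y v) (x' v) (y' v) :=
  ex (ex ((KQ B).and
    (rel6 kq_step ((hx.up some).up some) ((hy.up some).up some) (((hw 0).up some).up some)
      (((hw 1).up some).up some) (var (some none)) (var none))
    (rel6 kq_step (var (some none)) (var none) (((hw 2).up some).up some)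
      (((hw 3).up some).up some) ((hx'.up some).up some) ((hy'.up some).up some))))

theorem kq_addQ (x₀ y₀ : ℚ) :
    (KQ B).D fun v : Fin 6 → ℚ => AddQ x₀ y₀ (v 0) (v 1) (v 2) (v 3) (v 4) (v 5) :=
  (KQ B).exF (τ := Fin 4) (S := fun v => (G0 (v (.inr 0)) (v (.inr 1)) ∧
      G0 (v (.inr 2)) (v (.inr 3))) ∧ Two (fun j => v (.inr j)) x₀ y₀ (v (.inl 2)) (v (.inl 3)) ∧
      Two (fun j => v (.inr j)) (v (.inl 0)) (v (.inl 1)) (v (.inl 4)) (v (.inl 5)))
    ((KQ B).and ((KQ B).and (rel2 kq_G0 (var _) (var _)) (rel2 kq_G0 (var _) (var _)))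
      ((KQ B).and (kq_two (fun _ => var _) (kq_lin.const _) (kq_lin.const _) (var _) (var _))
        (kq_two (fun _ => var _) (var _) (var _) (var _) (var _))))

variable {X Y U V : ℤ → ℚ} {e : ℤ} {κ C : ℝ}

theorem Model.step (M : Model X Y U V e κ C) (n : ℤ) {m : ℤ} (hm : m ≠ 0) {x y : ℚ} :
    Step (X n) (Y n) (U m) (V m) x y ↔ x = X (n + m) ∧ y = Y (n + m) := by
  constructor
  · rintro ⟨l, h1, h2, h3⟩
    obtain ⟨h4, h5⟩ := M.add n m l hm h1
    have : x = X (n + m) := h2.trans h4.symm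
    exact ⟨this, by rw [h3, h5, this]⟩
  · rintro ⟨rfl, rfl⟩
    have h1 := div_mul_cancel₀ (Y n - V m) (sub_ne_zero.2 (M.ne n m hm))
    exact ⟨_, h1, M.add n m _ hm h1⟩

theorem Model.two (M : Model X Y U V e κ C) (n : ℤ) {m m' : ℤ} (hm : m ≠ 0) (hm' : m' ≠ 0)
    {w : Fin 4 → ℚ} (h0 : w 0 = U m) (h1 : w 1 = V m) (h2 : w 2 = U m') (h3 : w 3 = V m')
    {x y : ℚ} : Two w (X n) (Y n) x y ↔ x = X (n + (m + m')) ∧ y = Y (n + (m + m')) := by
  rw [Two, h0, h1, h2, h3, ← add_assoc]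
  simp only [M.step n hm]
  constructor
  · rintro ⟨_, _, ⟨rfl, rfl⟩, h⟩
    exact (M.step _ hm').1 h
  · exact fun h => ⟨_, _, ⟨rfl, rfl⟩, (M.step _ hm').2 h⟩

theorem Model.addQ (M : Model X Y U V e κ C) (a : ℤ) {x y x' y' : ℚ} :
    AddQ (X 0) (Y 0) (X a) (Y a) x y x' y' ↔
      ∃ b, (x = X b ∧ y = Y b) ∧ x' = X (a + b) ∧ y' = Y (a + b) := by
  constructor
  · rintro ⟨w, ⟨g1, g2⟩, h1, h2⟩
    obtain ⟨m, hm, e0, e1⟩ := (M.uv _ _).2 g1
    obtain ⟨m', hm', e2, e3⟩ := (M.uv _ _).2 g2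
    rw [M.two _ hm hm' e0 e1 e2 e3] at h1 h2
    exact ⟨m + m', zero_add (m + m') ▸ h1, h2⟩
  · rintro ⟨b, h1, h2⟩
    have hm : b + (|b| + 1) ≠ 0 := by have := neg_abs_le b; omega
    have hm' : -(|b| + 1) ≠ 0 := by have := abs_nonneg b; omega
    refine ⟨![U (b + (|b| + 1)), V (b + (|b| + 1)), U (-(|b| + 1)), V (-(|b| + 1))],
      ⟨(M.uv _ _).1 ⟨_, hm, rfl, rfl⟩, (M.uv _ _).1 ⟨_, hm', rfl, rfl⟩⟩, ?_, ?_⟩ <;>
      rw [M.two _ hm hm' rfl rfl rfl rfl, add_neg_cancel_right]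
    · rwa [zero_add]
    · exact h2

/-- coding of tuples of integers -/
def emb (X Y : ℤ → ℚ) (n : ι → ℤ) : ι × Bool → ℚ := fun p => bif p.2 then X (n p.1) else Y (n p.1)

/-- The class of the relations on integers whose codes are defined by systems of constraints. -/
def Model.K (M : Model X Y U V e κ C) (B : ℚ → ℚ → Prop) : Cls ℤ where
  D S := ∃ S', (KQ B).D S' ∧ ∀ n, S n ↔ S' (emb X Y n)
  ren f := fun ⟨_, h, h'⟩ => ⟨_, (KQ B).ren (Prod.map f id) h, fun _ => h' _⟩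
  and := fun ⟨_, h, h'⟩ ⟨_, g, g'⟩ => ⟨_, (KQ B).and h g, fun n => and_congr (h' n) (g' n)⟩
  exF := fun {ι τ} _ S ⟨S', h, h'⟩ => ⟨_, (KQ B).exF (τ := τ × Bool) ((KQ B).and
    (all fun t : τ => rel6 (kq_addQ (X 0) (Y 0)) (kq_lin.const (X 0)) (kq_lin.const (Y 0))
      (var (.inr (t, true))) (var (.inr (t, false))) (var (.inr (t, true))) (var (.inr (t, false))))
    ((KQ B).ren (Equiv.sumProdDistrib ι τ Bool) h)), fun n => by
    have e : ∀ u : τ → ℤ, emb X Y (Sum.elim n u) = fun i =>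
        Sum.elim (emb X Y n) (emb X Y u) (Equiv.sumProdDistrib ι τ Bool i) := fun u => by
      funext i
      rcases i with ⟨i | i, b⟩ <;> rfl
    simp only [h', e, M.addQ]
    constructor
    · rintro ⟨u, hu⟩
      exact ⟨emb X Y u, fun t => ⟨u t, ⟨rfl, rfl⟩, (zero_add (u t)).symm ▸ ⟨rfl, rfl⟩⟩, hu⟩
    · rintro ⟨w, h1, hw⟩
      choose u hu _ using h1
      have : w = emb X Y u := by
        funext i
        rcases i with ⟨t, _ | _⟩
        · exact (hu t).2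
        · exact (hu t).1
      exact ⟨u, this ▸ hw⟩⟩
  eq i j := ⟨_, (KQ B).and ((KQ B).eq (i, true) (j, true)) ((KQ B).eq (i, false) (j, false)),
    fun n => ⟨fun h => ⟨congrArg X h, congrArg Y h⟩, fun h => M.inj _ _ h.1 h.2⟩⟩
  triv := ⟨_, (KQ B).triv, fun _ => Iff.rfl⟩

theorem Model.lin (M : Model X Y U V e κ C) : (M.K B).Lin where
  add' := ⟨_, rel6 (kq_addQ (X 0) (Y 0)) (var (0, true)) (var (0, false)) (var (1, true))
    (var (1, false)) (var (2, true)) (var (2, false)), fun n => by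
    refine Iff.trans ⟨fun h => ⟨n 1, ⟨rfl, rfl⟩, h ▸ ⟨rfl, rfl⟩⟩, ?_⟩ (M.addQ (n 0)).symm
    rintro ⟨b, h1, h2⟩
    rw [M.inj (n 1) b h1.1 h1.2, M.inj (n 2) _ h2.1 h2.2]⟩
  const' c := ⟨_, (KQ B).and (eqf (var ((), true)) (kq_lin.const (X c)))
    (eqf (var ((), false)) (kq_lin.const (Y c))), fun n =>
    ⟨fun h => ⟨congrArg X h, congrArg Y h⟩, fun h => M.inj _ _ h.1 h.2⟩⟩

/-- two-sided comparison of `x₃` with `x₁ + x₂` -/
def Cmp (B : ℚ → ℚ → Prop) (N x₁ x₂ x₃ : ℚ) : Prop := B x₃ (x₁ + x₂ + N) ∧ B (x₁ + x₂) (x₃ + N)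

theorem Model.cmp (M : Model X Y U V e κ C) {R : ℚ → ℚ → Prop}
    (hR : (KQ B).D fun v : Fin 2 → ℚ => R (v 0) (v 1)) (N : ℚ) :
    (M.K B).D fun v : Fin 3 → ℤ => Cmp R N (X (v 0)) (X (v 1)) (X (v 2)) := by
  have L := kq_lin (B := B)
  exact ⟨_, (KQ B).and
    (rel2 hR (var (2, true)) (L.add (L.add (var (0, true)) (var (1, true))) (L.const N)))
    (rel2 hR (L.add (var (0, true)) (var (1, true))) (L.add (var (2, true)) (L.const N))),
    fun _ => Iff.rfl⟩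

end Vale.Agent.P027
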