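import Vale.Agent.P027.Sq
import Vale.Agent.P345.Rec

/-! The reduction of the halting problem. -/

namespace Vale.Agent.P027

open Cls Nat.Partrec.Code

variable {B : ℚ → ℚ → Prop}

/-- systems with unknowns indexed by natural numbers -/
theorem Df.list {S : (Fin 4 → ℚ) → Prop} (h : Df B S) : ∃ L : List (ℕ × ℕ × ℕ × ℕ),
    ∀ v, S v ↔ ∃ x : ℕ → ℚ, (∀ i : Fin 4, x i = v i) ∧ ∀ c ∈ L, Holds B x c := by
  obtain ⟨σ, _, L, h⟩ := h
  obtain ⟨n, ⟨e⟩⟩ := Finite.exists_equiv_fin σ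
  let f : Fin 4 ⊕ σ → ℕ := Sum.elim Fin.val fun s => 4 + e s
  have hf : Function.Injective f := by
    rintro (i | i) (j | j) h <;> simp only [f, Sum.elim_inl, Sum.elim_inr] at h
    · rw [Fin.ext h]
    · omega
    · omega
    · rw [e.injective (Fin.ext (by omega) : e i = e j)]
  refine ⟨L.map (ren f), fun v => (h v).trans ⟨fun ⟨w, hw⟩ => ?_, fun ⟨x, h1, h2⟩ => ?_⟩⟩
  · refine ⟨Function.extend f (Sum.elim v w) 0, fun i => hf.extend_apply _ _ (.inl i), ?_⟩
    rwa [holds_map, Function.extend_comp hf]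
  · refine ⟨fun s => x (4 + e s), ?_⟩
    rw [holds_map] at h2
    convert h2 using 3
    funext i
    rcases i with i | i
    · exact (h1 i).symm
    · rfl

/-- the unknowns of the block `t` which joins the points `i` and `k` -/
def rho (i k t j : ℕ) : ℕ :=
  if j < 2 then Nat.pair i j else if j < 4 then Nat.pair k (j - 2) else Nat.pair t j

theorem primrec_block (L : List (ℕ × ℕ × ℕ × ℕ)) {α : Type} [Primcodable α] {i k t : α → ℕ}
    (hi : Primrec i) (hk : Primrec k) (ht : Primrec t) :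
    Primrec fun a => L.map (ren (rho (i a) (k a) (t a))) := by
  have h : ∀ j, Primrec fun a => rho (i a) (k a) (t a) j := fun j => by
    unfold rho
    split_ifs
    · exact Primrec₂.natPair.comp hi (Primrec.const _)
    · exact Primrec₂.natPair.comp hk (Primrec.const _)
    · exact Primrec₂.natPair.comp ht (Primrec.const _)
  induction L with
  | nil => exact Primrec.const _
  | cons c L ih =>
    exact Primrec.list_cons.comp ((Primrec.const c.1).pair ((h _).pair ((h _).pair (h _)))) ih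

/-- chains of steps are described by a computable family of systems -/
theorem chain {T F : ℚ → ℚ → ℚ → ℚ → Prop} (hT : Df B fun v : Fin 4 → ℚ => T (v 0) (v 1) (v 2) (v 3))
    (hF : Df B fun v : Fin 4 → ℚ => F (v 0) (v 1) (v 2) (v 3)) :
    ∃ f : ℕ → List (ℕ × ℕ × ℕ × ℕ), Primrec f ∧ ∀ a, (∃ x : ℕ → ℚ, ∀ c ∈ f a, Holds B x c) ↔
      ∃ p q : ℕ → ℚ, F (p 0) (q 0) (p a) (q a) ∧ ∀ i < a, T (p i) (q i) (p (i + 1)) (q (i + 1)) := by
  obtain ⟨LT, hT⟩ := hT.list
  obtain ⟨LF, hF⟩ := hF.list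
  refine ⟨fun a => LF.map (ren (rho 0 a 0)) ++
    (List.range a).flatMap fun i => LT.map (ren (rho i (i + 1) (i + 1))),
    Primrec.list_append.comp (primrec_block LF (Primrec.const 0) Primrec.id (Primrec.const 0))
      (Primrec.list_flatMap Primrec.list_range (primrec_block LT Primrec.snd
        (Primrec.succ.comp Primrec.snd) (Primrec.succ.comp Primrec.snd)).to₂), fun a => ?_⟩
  simp only [List.forall_mem_append, List.forall_mem_flatMap, holds_map, List.mem_range]
  constructor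
  · rintro ⟨x, h1, h2⟩
    exact ⟨fun i => x (Nat.pair i 0), fun i => x (Nat.pair i 1),
      (hF fun j => x (rho 0 a 0 j)).2 ⟨_, fun _ => rfl, h1⟩,
      fun i hi => (hT fun j => x (rho i (i + 1) (i + 1) j)).2 ⟨_, fun _ => rfl, h2 i hi⟩⟩
  · rintro ⟨p, q, h1, h2⟩
    obtain ⟨y, hy, hy'⟩ := (hF ![p 0, q 0, p a, q a]).1 h1
    choose! z hz hz' using fun i hi => (hT ![p i, q i, p (i + 1), q (i + 1)]).1 (h2 i hi)
    let w : ℕ → ℕ → ℚ := fun t => Nat.casesOn t y z
    let x : ℕ → ℚ := fun n => if n.unpair.2 = 0 then p n.unpair.1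
      else if n.unpair.2 = 1 then q n.unpair.1 else w n.unpair.1 n.unpair.2
    have key : ∀ i k t, (∀ j : Fin 4, w t j = ![p i, q i, p k, q k] j) → x ∘ rho i k t = w t := by
      intro i k t h
      funext j
      match j with
      | 0 => simpa [x, rho] using (h 0).symm
      | 1 => simpa [x, rho] using (h 1).symm
      | 2 => simpa [x, rho] using (h 2).symm
      | 3 => simpa [x, rho] using (h 3).symm
      | j + 4 => simp [x, rho, show ¬ j + 4 < 2 by omega]
    exact ⟨x, key 0 a 0 hy ▸ hy', fun i hi => key i (i + 1) (i + 1) (hz i hi) ▸ hz' i hi⟩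

/-- the halting set is Diophantine -/
theorem halt_dioph : ∃ (σ : Type) (_ : Finite σ) (P : MvPolynomial (Fin 1 ⊕ σ) ℤ), ∀ c,
    (eval c 0).Dom ↔ ∃ w : σ → ℕ,
      MvPolynomial.eval (Sum.elim (fun _ => (Encodable.encode c : ℤ)) fun j => (w j : ℤ)) P = 0 := by
  have h : REPred fun a : Fin 1 → ℕ => (eval (Denumerable.ofNat Nat.Partrec.Code (a 0)) 0).Dom :=
    (eval_part.comp ((Computable.ofNat _).comp
      (Primrec.fin_app.comp Primrec.id (Primrec.const 0)).to_comp) (Computable.const _)).dom_re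
  obtain ⟨σ, _, f, ⟨P, hP⟩, h1, -⟩ := P345.sf_rePred h
  refine ⟨σ, inferInstance, P, fun c => ?_⟩
  have h2 := (P345.enc_iff (fun _ : Fin 1 => Encodable.encode c)).symm.trans (h1 _)
  simp only [Denumerable.ofNat_encode] at h2
  refine h2.trans (exists_congr fun w => Eq.congr_left ?_)
  refine (hP (Sum.elim (fun _ => Encodable.encode c) w)).trans ?_
  congr 2
  funext i
  rcases i with i | i <;> rfl

theorem undecidable {R : ℚ → ℚ → Prop} (hR : (KQ B).D fun v : Fin 2 → ℚ => R (v 0) (v 1))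
    (hB : ∀ x y, Ht x ≤ Ht y → R x y) {c₀ : ℕ} (hB' : ∀ x y, R x y → Ht x ≤ c₀ * Ht y) :
    ¬ ComputablePred fun L : List (ℕ × ℕ × ℕ × ℕ) => ∃ x : ℕ → ℚ, ∀ c ∈ L, Holds B x c := by
  intro hc
  obtain ⟨X, Y, U, V, e, κ, C, M⟩ := exists_model
  obtain ⟨σ, _, P, hP⟩ := halt_dioph
  have L := M.lin (B := B)
  have hm := M.mul hR hB hB'
  have nn : (M.K B).D fun v : Unit → ℤ => ∃ u : Fin 4 → ℤ,
      v () = u 0 * u 0 + u 1 * u 1 + u 2 * u 2 + u 3 * u 3 :=
    (M.K B).exF (S := fun v => v (.inl ()) = v (.inr 0) * v (.inr 0) + v (.inr 1) * v (.inr 1) +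
      v (.inr 2) * v (.inr 2) + v (.inr 3) * v (.inr 3)) (eqf (var _) (L.add (L.add (L.add
        (op2 hm (var _) (var _)) (op2 hm (var _) (var _))) (op2 hm (var _) (var _)))
        (op2 hm (var _) (var _))))
  obtain ⟨S, hS, hS'⟩ := (M.K B).exF ((M.K B).and
    (all fun s : σ => (M.K B).ren (fun _ => (Sum.inr s : Fin 1 ⊕ σ)) nn)
    (eqf (L.eval hm P) (L.const 0)))
  have Q := kq_lin (B := B)
  obtain ⟨f, hf, h⟩ := chain (B := B) (T := AddQ (X 0) (Y 0) (X 1) (Y 1))
    (F := fun x y x' y' => (x = X 0 ∧ y = Y 0) ∧ S fun p => bif p.2 then x' else y')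
    (rel6 (kq_addQ (X 0) (Y 0)) (Q.const _) (Q.const _) (var 0) (var 1) (var 2) (var 3))
    ((KQ B).and ((KQ B).and (eqf (var 0) (Q.const _)) (eqf (var 1) (Q.const _)))
      (congr ((KQ B).ren (fun p : Fin 1 × Bool => bif p.2 then (2 : Fin 4) else 3) hS) fun v => by
        simp only [Bool.apply_cond v]))
  refine ComputablePred.halting_problem 0 (ComputablePred.computable_of_manyOneReducible
    ⟨fun c => f (Encodable.encode c), (hf.comp Primrec.encode).to_comp, fun c => ?_⟩ hc)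
  refine (hP c).trans (Iff.trans ?_ (h _).symm)
  generalize Encodable.encode c = a
  refine Iff.trans ?_ ((hS' fun _ => a).trans ⟨fun h => ?_, ?_⟩)
  · constructor
    · rintro ⟨w, hw⟩
      refine ⟨_, fun s => ?_, hw⟩
      obtain ⟨a, b, c, d, h⟩ := Nat.sum_four_squares (w s)
      refine ⟨![a, b, c, d], ?_⟩
      simp [← h, sq]
    · rintro ⟨w, h1, hw⟩
      have h2 : ∀ s, 0 ≤ w s := fun s => by
        obtain ⟨u, hu⟩ := h1 s
        exact le_of_le_of_eq (add_nonneg (add_nonneg (add_nonneg (mul_self_nonneg _)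
          (mul_self_nonneg _)) (mul_self_nonneg _)) (mul_self_nonneg _)) hu.symm
      exact ⟨fun s => (w s).toNat, by simpa only [Int.toNat_of_nonneg (h2 _)] using hw⟩
  · refine ⟨fun i => X i, fun i => Y i, ⟨⟨rfl, rfl⟩, h⟩, fun i _ => (M.addQ 1).2 ⟨i, ⟨rfl, rfl⟩, ?_⟩⟩
    rw [add_comm (1 : ℤ)]
    exact ⟨rfl, rfl⟩
  · rintro ⟨p, q, ⟨h0, h1⟩, h2⟩
    have key : ∀ i ≤ a, p i = X i ∧ q i = Y i := fun i hi => by
      induction i with
      | zero => exact h0
      | succ i ih =>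
        obtain ⟨b, h3, h4⟩ := (M.addQ 1).1 (h2 i hi)
        obtain ⟨h5, h6⟩ := ih (Nat.le_of_succ_le hi)
        rwa [← M.inj i b (h5.symm.trans h3.1) (h6.symm.trans h3.2), add_comm (1 : ℤ)] at h4
    rwa [(key a le_rfl).1, (key a le_rfl).2] at h1

theorem kq_dioph {m : ℕ} (g : MvPolynomial (Fin 2 ⊕ Fin m) ℤ) : (KQ B).D fun v : Fin 2 → ℚ =>
    ∃ y : Fin m → ℚ, MvPolynomial.aeval (Sum.elim ![v 0, v 1] y) g = 0 :=
  congr ((KQ B).exF (eqf (kq_lin.eval kq_mul (MvPolynomial.map (algebraMap ℤ ℚ) g))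
    (kq_lin.const 0))) fun v => by
    have : ![v 0, v 1] = v := by
      funext i
      fin_cases i <;> rfl
    simp only [this, MvPolynomial.eval_map, MvPolynomial.aeval_def]

end Vale.Agent.P027
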