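import Vale.Agent.P027.Mod

/-! Squares and products are defined by comparing heights. -/

namespace Vale.Agent.P027

open Cls

theorem den_mul_dvd (x y : ℚ) : x.den * y.den ∣ Nat.gcd x.den y.den ^ 2 * (x + y).den := by
  have h1 : x.den ∣ (x + y).den * y.den := by simpa using Rat.sub_den_dvd (x + y) y
  have h2 : y.den ∣ (x + y).den * x.den := by simpa using Rat.sub_den_dvd (x + y) x
  have h0 : 0 < Nat.gcd x.den y.den := Nat.gcd_pos_of_pos_left _ x.den_pos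
  obtain ⟨a, b, hab, ha, hb⟩ := Nat.exists_coprime x.den y.den
  generalize Nat.gcd x.den y.den = G at *
  rw [ha, hb, ← mul_assoc] at h1 h2
  have h3 := hab.mul_dvd_of_dvd_of_dvd
    (hab.dvd_of_dvd_mul_right (Nat.dvd_of_mul_dvd_mul_right h0 h1))
    (hab.symm.dvd_of_dvd_mul_right (Nat.dvd_of_mul_dvd_mul_right h0 h2))
  rw [ha, hb, show a * G * (b * G) = G ^ 2 * (a * b) by ring]
  exact Nat.mul_dvd_mul_left _ h3

theorem natAbs_num (x : ℚ) : (x.num.natAbs : ℚ) = |x| * x.den := by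
  rw [Nat.cast_natAbs, Int.cast_abs, ← Rat.mul_den_eq_num, abs_mul, Nat.abs_cast]

theorem den_le_ht (x : ℚ) : x.den ≤ Ht x := le_max_right _ _

theorem ht_le {x : ℚ} {n : ℕ} (h : |x| ≤ n) (hn : 1 ≤ n) : Ht x ≤ n * x.den := by
  refine max_le ?_ (Nat.le_mul_of_pos_left _ hn)
  have : (x.num.natAbs : ℚ) ≤ n * x.den := natAbs_num x ▸ by gcongr
  exact_mod_cast this

theorem le_ht {x : ℚ} {n : ℕ} (h : n ≤ |x|) : n * x.den ≤ Ht x := by
  refine le_trans ?_ (le_max_left _ _)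
  have : (n : ℚ) * x.den ≤ x.num.natAbs := natAbs_num x ▸ by gcongr
  exact_mod_cast this

theorem cmp_of {B : ℚ → ℚ → Prop} (hB : ∀ x y, Ht x ≤ Ht y → B x y) {x y z : ℚ} (hx : |x| ≤ 2)
    (hy : |y| ≤ 2) (hz : |z| ≤ 2) {A : ℕ}
    (h1 : z.den * Nat.gcd x.den y.den ^ 2 ≤ A * (x.den * y.den))
    (h2 : x.den * y.den ≤ A * z.den) : Cmp B ((4 * A + 4 : ℕ) : ℚ) x y z := by
  have h0 : 0 < Nat.gcd x.den y.den ^ 2 := pow_pos (Nat.gcd_pos_of_pos_left _ x.den_pos) 2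
  have g1 := Nat.le_of_dvd (mul_pos h0 (x + y).den_pos) (den_mul_dvd x y)
  have g2 := Nat.le_of_dvd (mul_pos x.den_pos y.den_pos) (Rat.add_den_dvd x y)
  have hA : (0 : ℚ) ≤ A := Nat.cast_nonneg A
  obtain ⟨x1, x2⟩ := abs_le.1 hx
  obtain ⟨y1, y2⟩ := abs_le.1 hy
  obtain ⟨z1, z2⟩ := abs_le.1 hz
  refine ⟨hB _ _ ((ht_le (n := 2) hz one_le_two).trans (le_trans ?_ (le_ht (n := 4 * A) ?_))),
    hB _ _ ((ht_le (n := 4) ?_ (by norm_num)).trans (le_trans ?_ (le_ht (n := 4 * A) ?_)))⟩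
  · rw [Rat.add_natCast_den]
    have : z.den ≤ A * (x + y).den := Nat.le_of_mul_le_mul_right (by nlinarith) h0
    nlinarith
  · refine le_trans ?_ (le_abs_self _)
    push_cast
    linarith
  · exact abs_le.2 ⟨by push_cast; linarith, by push_cast; linarith⟩
  · rw [Rat.add_natCast_den]
    nlinarith
  · refine le_trans ?_ (le_abs_self _)
    push_cast
    linarith

theorem of_cmp {B : ℚ → ℚ → Prop} {c : ℕ} (hB : ∀ x y, B x y → Ht x ≤ c * Ht y) {x y z : ℚ}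
    (hx : |x| ≤ 2) (hy : |y| ≤ 2) (hz : |z| ≤ 2) {N : ℕ} (h : Cmp B N x y z) :
    z.den ≤ (c + 1) * (N + 4) * (x.den * y.den) ∧
      x.den * y.den ≤ (c + 1) * (N + 4) * (z.den * Nat.gcd x.den y.den ^ 2) := by
  have h0 : 0 < Nat.gcd x.den y.den ^ 2 := pow_pos (Nat.gcd_pos_of_pos_left _ x.den_pos) 2
  have g1 := Nat.le_of_dvd (mul_pos h0 (x + y).den_pos) (den_mul_dvd x y)
  have g2 := Nat.le_of_dvd (mul_pos x.den_pos y.den_pos) (Rat.add_den_dvd x y)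
  have hN : (0 : ℚ) ≤ N := Nat.cast_nonneg N
  obtain ⟨x1, x2⟩ := abs_le.1 hx
  obtain ⟨y1, y2⟩ := abs_le.1 hy
  obtain ⟨z1, z2⟩ := abs_le.1 hz
  have h1 := ht_le (x := x + y + N) (n := N + 4)
    (abs_le.2 ⟨by push_cast; linarith, by push_cast; linarith⟩) (by omega)
  have h2 := ht_le (x := z + N) (n := N + 4)
    (abs_le.2 ⟨by push_cast; linarith, by push_cast; linarith⟩) (by omega)
  rw [Rat.add_natCast_den] at h1 h2
  have h3 := ((den_le_ht _).trans (hB _ _ h.1)).trans (Nat.mul_le_mul (c.le_add_right 1)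
    (h1.trans (Nat.mul_le_mul_left _ g2)))
  have h4 := ((den_le_ht _).trans (hB _ _ h.2)).trans (Nat.mul_le_mul (c.le_add_right 1) h2)
  exact ⟨h3.trans_eq (by ring), g1.trans ((Nat.mul_le_mul_left _ h4).trans_eq (by ring))⟩

theorem log_iff {a b c d g A : ℕ} (ha : 0 < a) (hb : 0 < b) (hc : 0 < c) (hg : 0 < g) (hA : 0 < A)
    (hd : d = c * g ^ 2) :
    (d ≤ A * (a * b) ↔ Real.log c + 2 * Real.log g ≤ Real.log A + (Real.log a + Real.log b)) ∧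
      (a * b ≤ A * d ↔ Real.log a + Real.log b ≤ Real.log A + (Real.log c + 2 * Real.log g)) := by
  have e : Real.log c + 2 * Real.log g = Real.log d := by
    rw [hd, Nat.cast_mul, Nat.cast_pow, Real.log_mul (by positivity) (by positivity), Real.log_pow]
    norm_num
  have h0 : 0 < d := hd ▸ by positivity
  rw [e, ← Real.log_mul (by positivity) (by positivity : (b : ℝ) ≠ 0),
    ← Real.log_mul (by positivity) (by positivity), ← Real.log_mul (by positivity) (by positivity),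
    Real.log_le_log_iff (by positivity) (by positivity),
    Real.log_le_log_iff (by positivity) (by positivity)]
  constructor <;> norm_cast

variable {B : ℚ → ℚ → Prop} {X Y U V : ℤ → ℚ} {e : ℤ} {κ C : ℝ}

/-- completeness of the comparison -/
theorem Model.cmp_of (M : Model X Y U V e κ C) (hB : ∀ x y, Ht x ≤ Ht y → B x y) (R : ℕ) :
    ∃ N : ℕ, ∀ a b c : ℤ, Int.gcd (2 * a + e) (2 * b + e) ≠ 0 →
      Int.gcd (2 * a + e) (2 * b + e) ≤ R →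
      |(2 * a + e) ^ 2 + (2 * b + e) ^ 2 - (2 * c + e) ^ 2| ≤ (R : ℤ) →
      Cmp B N (X a) (X b) (X c) := by
  obtain ⟨A, hA⟩ := exists_nat_ge (Real.exp (κ * R + 8 * κ * R ^ 2 + 5 * C))
  have h0 : (0 : ℝ) < A := (Real.exp_pos _).trans_le hA
  have hA' := (Real.le_log_iff_exp_le h0).2 hA
  refine ⟨4 * A + 4, fun a b c g0 g1 h => ?_⟩
  have hG := Nat.gcd_pos_of_pos_left (X b).den (X a).den_pos
  have k1 := abs_le.1 (M.ht a)
  have k2 := abs_le.1 (M.ht b)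
  have k3 := abs_le.1 (M.ht c)
  have k4 := M.gcd a b g0
  have k5 : ((Int.gcd (2 * a + e) (2 * b + e) : ℕ) : ℝ) ^ 2 ≤ R ^ 2 := by gcongr
  have k6 : |(2 * a + e : ℝ) ^ 2 + (2 * b + e) ^ 2 - (2 * c + e) ^ 2| ≤ (R : ℝ) := by
    exact_mod_cast h
  have k7 := mul_le_mul_of_nonneg_left (abs_le.1 k6).1 M.pos.le
  have k8 := mul_le_mul_of_nonneg_left (abs_le.1 k6).2 M.pos.le
  have k9 := mul_le_mul_of_nonneg_left k5 M.pos.le
  have k10 := mul_nonneg M.pos.le (sq_nonneg (R : ℝ))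
  refine P027.cmp_of hB (M.bd a) (M.bd b) (M.bd c)
    ((log_iff (X a).den_pos (X b).den_pos (X c).den_pos hG (Nat.cast_pos.1 h0) rfl).1.2
      (by linarith))
    ((log_iff (X a).den_pos (X b).den_pos (X c).den_pos one_pos (Nat.cast_pos.1 h0)
      (by simp)).2.2 ?_)
  rw [Nat.cast_one, Real.log_one]
  linarith

/-- soundness of the comparison -/
theorem Model.of_cmp (M : Model X Y U V e κ C) {c₀ : ℕ} (hB : ∀ x y, B x y → Ht x ≤ c₀ * Ht y)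
    (N : ℕ) : ∃ R : ℕ, ∀ a b c : ℤ, Int.gcd (2 * a + e) (2 * b + e) ≠ 0 →
      Cmp B N (X a) (X b) (X c) → |(2 * a + e) ^ 2 + (2 * b + e) ^ 2 - (2 * c + e) ^ 2| ≤
        8 * (Int.gcd (2 * a + e) (2 * b + e) : ℤ) ^ 2 + R := by
  have hA : 0 < (c₀ + 1) * (N + 4) := by positivity
  obtain ⟨R, hR⟩ := exists_nat_ge ((Real.log ((c₀ + 1) * (N + 4) : ℕ) + 5 * C) / κ)
  rw [div_le_iff₀ M.pos] at hR
  refine ⟨R, fun a b c g0 h => ?_⟩
  obtain ⟨h1, h2⟩ := P027.of_cmp hB (M.bd a) (M.bd b) (M.bd c) h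
  have hG := Nat.gcd_pos_of_pos_left (X b).den (X a).den_pos
  replace h1 := (log_iff (X a).den_pos (X b).den_pos (X c).den_pos one_pos hA (by simp)).1.1 h1
  replace h2 := (log_iff (X a).den_pos (X b).den_pos (X c).den_pos hG hA rfl).2.1 h2
  rw [Nat.cast_one, Real.log_one] at h1
  have k1 := abs_le.1 (M.ht a)
  have k2 := abs_le.1 (M.ht b)
  have k3 := abs_le.1 (M.ht c)
  have k4 := M.gcd a b g0
  have k5 := mul_nonneg M.pos.le (sq_nonneg ((Int.gcd (2 * a + e) (2 * b + e) : ℕ) : ℝ))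
  have : |(2 * a + e : ℝ) ^ 2 + (2 * b + e) ^ 2 - (2 * c + e) ^ 2| ≤
      8 * ((Int.gcd (2 * a + e) (2 * b + e) : ℕ) : ℝ) ^ 2 + R :=
    abs_le.2 ⟨le_of_mul_le_mul_left (by linarith) M.pos, le_of_mul_le_mul_left (by linarith) M.pos⟩
  exact_mod_cast this

theorem three_dvd {n Δ : ℤ} {g₀ g₁ g₂ : ℕ} (h0 : (g₀ : ℤ) ∣ n) (h1 : (g₁ : ℤ) ∣ n + 4)
    (h2 : (g₂ : ℤ) ∣ n + 8) (d0 : (g₀ : ℤ) ∣ Δ) (d1 : (g₁ : ℤ) ∣ Δ) (d2 : (g₂ : ℤ) ∣ Δ) :
    g₀ * g₁ * g₂ ∣ 128 * Δ.natAbs := by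
  have key : ∀ {a b : ℕ} {u v : ℤ} (c : ℕ), (a : ℤ) ∣ u → (b : ℤ) ∣ v → v - u = c →
      Nat.gcd a b ∣ c := fun c ha hb hc => Int.natCast_dvd_natCast.1 (hc ▸ dvd_sub
        ((Int.natCast_dvd_natCast.2 (Nat.gcd_dvd_right _ _)).trans hb)
        ((Int.natCast_dvd_natCast.2 (Nat.gcd_dvd_left _ _)).trans ha))
  have two : ∀ {a b c m : ℕ}, a ∣ m → b ∣ m → Nat.gcd a b ∣ c → a * b ∣ c * m :=
    fun ha hb hc => Nat.gcd_mul_lcm _ _ ▸ Nat.mul_dvd_mul hc (Nat.lcm_dvd ha hb)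
  rw [Int.natCast_dvd] at d0 d1 d2
  have := two (two d0 d1 (key 4 h0 h1 (by ring))) (d2.mul_left 4)
    ((Nat.gcd_mul_left_dvd_mul_gcd _ _ _).trans
      (Nat.mul_dvd_mul (key 8 h0 h2 (by ring)) (key 4 h1 h2 (by ring))))
  rwa [← mul_assoc] at this

theorem three_bd {g₀ g₁ g₂ D R : ℕ} (h : g₀ * g₁ * g₂ ≤ 128 * D) (h0 : D ≤ 8 * g₀ ^ 2 + R)
    (h1 : D ≤ 8 * g₁ ^ 2 + R) (h2 : D ≤ 8 * g₂ ^ 2 + R) : D ≤ 8 * (1024 + 128 * R) ^ 2 + R := by
  have key : ∀ g, g * g * g ≤ 128 * D → D ≤ 8 * g ^ 2 + R → D ≤ 8 * (1024 + 128 * R) ^ 2 + R := by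
    intro g a b
    refine b.trans (by_contra fun hc => ?_)
    have h3 : 1024 + 128 * R + 1 ≤ g := by
      by_contra h4
      exact hc (by gcongr; omega)
    have h4 := Nat.mul_le_mul_left (g * g) h3
    have h5 : 128 * R * 1 ≤ 128 * R * (g * g) := Nat.mul_le_mul_left _ (by nlinarith)
    have h6 : 0 < g * g := by nlinarith
    nlinarith
  rcases le_total g₀ g₁ with a | a <;> rcases le_total g₁ g₂ with b | b <;>
    rcases le_total g₀ g₂ with c | c <;>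
    first
    | exact key g₀ ((Nat.mul_le_mul (Nat.mul_le_mul le_rfl a) c).trans h) h0
    | exact key g₁ ((Nat.mul_le_mul (Nat.mul_le_mul a le_rfl) b).trans h) h1
    | exact key g₂ ((Nat.mul_le_mul (Nat.mul_le_mul c b) le_rfl).trans h) h2
    | exact key g₀ ((Nat.mul_le_mul (Nat.mul_le_mul le_rfl a) (a.trans b)).trans h) h0
    | exact key g₂ ((Nat.mul_le_mul (Nat.mul_le_mul (b.trans a) b) le_rfl).trans h) h2

/-- the characterisation of squares -/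
theorem Model.sq_iff (M : Model X Y U V e κ C) (hB : ∀ x y, Ht x ≤ Ht y → B x y) {c₀ : ℕ}
    (hB' : ∀ x y, B x y → Ht x ≤ c₀ * Ht y) : ∃ (N : ℕ) (K : ℤ), ∀ a s : ℤ, s = a * a ↔
      ∀ j : Fin 3, Cmp B N (X (2 * K * a + 0 * s + 2 * (j : ℕ)))
        (X ((e + 4 * (j : ℕ)) * K * a + 2 * K ^ 2 * s + (2 * (j : ℕ) ^ 2 + e * (j : ℕ) + e ^ 2 + 1)))
        (X ((e + 4 * (j : ℕ)) * K * a + 2 * K ^ 2 * s +
          (2 * (j : ℕ) ^ 2 + e * (j : ℕ) + e ^ 2 + 2))) := by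
  obtain ⟨c, hc⟩ : ∃ c : ℕ, (c : ℤ) = 7 * e ^ 2 + 4 * e + 8 :=
    ⟨_, Int.toNat_of_nonneg (by nlinarith [sq_nonneg (e + 1)])⟩
  have c0 : 0 < c := by
    have : (0 : ℤ) < c := by nlinarith [sq_nonneg (e + 1)]
    exact_mod_cast this
  obtain ⟨N, hN⟩ := M.cmp_of hB (c + 4)
  obtain ⟨R, hR⟩ := M.of_cmp hB' N
  obtain ⟨K, hK⟩ : ∃ K : ℕ, K = 8 * (1024 + 128 * (R + 4)) ^ 2 + (R + 4) + c + 1 := ⟨_, rfl⟩
  refine ⟨N, K, fun a s => ?_⟩
  have key : ∀ j n₁ n₂ n₃ : ℤ, n₁ = 2 * K * a + 0 * s + 2 * j →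
      n₂ = (e + 4 * j) * K * a + 2 * K ^ 2 * s + (2 * j ^ 2 + e * j + e ^ 2 + 1) →
      n₃ = (e + 4 * j) * K * a + 2 * K ^ 2 * s + (2 * j ^ 2 + e * j + e ^ 2 + 2) →
      (Int.gcd (2 * n₁ + e) (2 * n₂ + e) : ℤ) ∣ 16 * K ^ 2 * (a * a - s) - c ∧
      (Int.gcd (2 * n₁ + e) (2 * n₂ + e) : ℤ) ∣ 4 * K * a + e + 4 * j ∧
      (2 * n₁ + e) ^ 2 + (2 * n₂ + e) ^ 2 - (2 * n₃ + e) ^ 2 =
        16 * K ^ 2 * (a * a - s) - c - 4 := by
    intro j n₁ n₂ n₃ h1 h2 h3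
    have e1 : 16 * K ^ 2 * (a * a - s) - c = (2 * n₁ + e) * (2 * n₁ + e) - 4 * (2 * n₂ + e) := by
      rw [h1, h2, hc]
      ring
    have e2 : 4 * K * a + e + 4 * j = 2 * n₁ + e := by
      rw [h1]
      ring
    refine ⟨e1 ▸ dvd_sub ((Int.gcd_dvd_left _ _).mul_right _) ((Int.gcd_dvd_right _ _).mul_left _),
      e2 ▸ Int.gcd_dvd_left _ _, ?_⟩
    rw [h1, h2, h3, hc]
    ring
  constructor
  · rintro rfl j
    obtain ⟨h1, -, h2⟩ := key (j : ℕ) _ _ _ rfl rfl rfl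
    rw [sub_self, mul_zero, zero_sub] at h1 h2
    rw [dvd_neg, Int.natCast_dvd_natCast] at h1
    refine hN _ _ _ (fun h => ?_) ((Nat.le_of_dvd c0 h1).trans (by omega)) ?_
    · rw [h, zero_dvd_iff] at h1
      omega
    · rw [h2, abs_le]
      omega
  · intro h
    by_contra hs
    obtain ⟨Δ, hΔ⟩ : ∃ Δ : ℤ, Δ = 16 * K ^ 2 * (a * a - s) - c := ⟨_, rfl⟩
    have h1 : K ≤ Δ.natAbs + c := by
      have : K ^ 2 ∣ (Δ + c).natAbs := Int.natCast_dvd.1 ⟨16 * (a * a - s), by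
        rw [hΔ]
        push_cast
        ring⟩
      have h2 : Δ + c ≠ 0 := by
        rw [hΔ, sub_add_cancel]
        exact mul_ne_zero (by rw [hK]; positivity) (sub_ne_zero.2 (Ne.symm hs))
      have h3 := Nat.le_of_dvd (Int.natAbs_pos.2 h2) this
      have h4 := Nat.le_self_pow two_ne_zero K
      omega
    have h2 : Δ ≠ 0 := by
      rintro rfl
      omega
    have h3 : ∀ j : Fin 3, ∃ g : ℕ, (g : ℤ) ∣ Δ ∧ (g : ℤ) ∣ 4 * K * a + e + 4 * (j : ℕ) ∧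
        Δ.natAbs ≤ 8 * g ^ 2 + (R + 4) := fun j => by
      obtain ⟨g1, g2, g3⟩ := key (j : ℕ) _ _ _ rfl rfl rfl
      rw [← hΔ] at g1 g3
      refine ⟨_, g1, g2, ?_⟩
      have := hR _ _ _ (fun h0 => h2 (by rwa [h0, Nat.cast_zero, zero_dvd_iff] at g1)) (h j)
      rw [g3, abs_le, ← Nat.cast_pow] at this
      omega
    obtain ⟨g₀, a0, b0, d0⟩ := h3 0
    obtain ⟨g₁, a1, b1, d1⟩ := h3 1
    obtain ⟨g₂, a2, b2, d2⟩ := h3 2
    have := three_bd (Nat.le_of_dvd (by positivity)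
      (three_dvd (by simpa using b0) (by simpa using b1) (by simpa using b2) a0 a1 a2)) d0 d1 d2
    omega

theorem Model.mul (M : Model X Y U V e κ C) {R : ℚ → ℚ → Prop}
    (hR : (KQ B).D fun v : Fin 2 → ℚ => R (v 0) (v 1)) (hB : ∀ x y, Ht x ≤ Ht y → R x y) {c₀ : ℕ}
    (hB' : ∀ x y, R x y → Ht x ≤ c₀ * Ht y) : (M.K B).D fun v : Fin 3 → ℤ => v 0 * v 1 = v 2 := by
  have L := M.lin (B := B)
  have aff : ∀ p q r : ℤ, (M.K B).Fn fun v : Option Unit → ℤ => p * v (some ()) + q * v none + r :=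
    fun p q r => L.add (L.add (L.zmul p (var _)) (L.zmul q (var _))) (L.const r)
  obtain ⟨N, K, h⟩ := M.sq_iff hB hB'
  have h1 : (M.K B).Fn fun v : Unit → ℤ => v () * v () :=
    congr (all fun j : Fin 3 => rel3 (R := fun a b c => Cmp R N (X a) (X b) (X c)) (M.cmp hR N)
      (aff _ _ _) (aff _ _ _) (aff _ _ _)) fun v => (h _ _).symm
  have h2 : ∀ {f : (Fin 3 → ℤ) → ℤ}, (M.K B).Fn f → (M.K B).Fn fun v => f v * f v :=
    fun hf => rel2 (R := fun a b => a = b * b)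
      ((M.K B).ren (fun o : Option Unit => o.elim (0 : Fin 2) fun _ => 1) h1) (var none) (hf.up some)
  refine congr (eqf (L.add (L.add (h2 (var 0)) (h2 (var 1))) (L.add (var 2) (var 2)))
    (h2 (L.add (var 0) (var 1)))) fun v => ⟨fun h => ?_, fun h => ?_⟩ <;> linarith

end Vale.Agent.P027
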